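import Crest.Agent.X212.Lens8.Edge
import Crest.Agent.X212.Bor5.Props

/-! Layer S: the leaves SHARP and SUMS. -/

set_option autoImplicit false

namespace Crest.Agent.X212.Lens8
open Bor5 (Ob Fam Sys Sl Ed kap Dc Sd Shr SharpStmt SumStmt)
open Bor5.Fam (Ch)

/-- `G` is even, non-negative, and zero exactly on `[a, b)` -/
def Gap (G : ℤ → ℚ) (a b : ℤ) : Prop := ∀ j, ∃ n : ℕ, G j = 2 * n ∧ (n = 0 ↔ a ≤ j ∧ j < b)

theorem gap_of {G : ℤ → ℚ} {m : ℤ → ℤ} {q a b c : ℤ} (hq : 0 < q)
    (hG : ∀ j, G (j + q) = G j + 2 * m j) (hac : a ≤ c) (hcb : c + q ≤ b)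
    (h0 : ∀ j, c ≤ j → j < c + q → G j = 0) (m0 : ∀ j, a ≤ j → j + q < b → m j = 0)
    (mp : ∀ j, b ≤ j + q → 0 ≤ m j) (mp' : ∀ j, b ≤ j + q → j < b → 0 < m j)
    (mn : ∀ j, j < a → m j ≤ 0) (mn' : ∀ j, j < a → a ≤ j + q → m j < 0) : Gap G a b := by
  have up : ∀ k : ℕ, ∀ j, c ≤ j → j < c + k → ∃ n : ℕ, G j = 2 * n ∧ (n = 0 ↔ a ≤ j ∧ j < b) := by
    intro k
    induction k with
    | zero => intro j h1 h2; omega
    | succ k ih =>
      intro j h1 h2
      rcases lt_or_ge j (c + q) with h | h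
      · exact ⟨0, by simp [h0 j h1 h], by omega⟩
      obtain ⟨n, e, hn⟩ := ih (j - q) (by omega) (by omega)
      have e' := hG (j - q)
      rw [sub_add_cancel, e] at e'
      have k1 := m0 (j - q)
      have k2 := mp (j - q)
      have k3 := mp' (j - q)
      obtain ⟨r, hr⟩ := Int.eq_ofNat_of_zero_le (a := m (j - q)) (by omega)
      exact ⟨n + r, by rw [e', hr]; push_cast; ring, by omega⟩
  have dn : ∀ k : ℕ, ∀ j, c ≤ j + k → ∃ n : ℕ, G j = 2 * n ∧ (n = 0 ↔ a ≤ j ∧ j < b) := by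
    intro k
    induction k with
    | zero => intro j h1; exact up ((j - c).toNat + 1) j (by omega) (by omega)
    | succ k ih =>
      intro j h1
      rcases le_or_gt c (j + k) with h | h
      · exact ih j h
      obtain ⟨n, e, hn⟩ := ih (j + q) (by omega)
      rw [hG] at e
      have k1 := m0 j
      have k2 := mn j
      have k3 := mn' j
      obtain ⟨r, hr⟩ := Int.eq_ofNat_of_zero_le (a := -m j) (by omega)
      have hr' : (m j : ℚ) = -r := by exact_mod_cast (by omega : m j = -r)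
      exact ⟨n + r, by rw [hr'] at e; push_cast; linarith, by omega⟩
  exact fun j => dn (c - j).toNat j (by omega)

theorem cast_emod (j : ℤ) (p : ℕ) : ((j % (p : ℤ) : ℤ) : ℚ) = j - p * ((j / (p : ℤ) : ℤ) : ℚ) := by
  rw [Int.emod_def]; push_cast; rfl

theorem gap_edge {p q p' q' : ℕ} (hp : 0 < p) (hp' : 0 < p') (h : p' * q = p * q' + 1) :
    Gap (fun i => D p q p' q' (i * q) (i * q')) (1 - p') (p + 1) := by
  have a : (0 : ℤ) < p := by exact_mod_cast hp
  have b : (0 : ℤ) < p' := by exact_mod_cast hp'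
  have e : (p' : ℤ) * q = p * q' + 1 := by exact_mod_cast h
  have key : ∀ i : ℤ, (0 < i * q / p - i * q' / p' → p ≤ i) ∧
      (i * q / p - i * q' / p' < 0 → i ≤ -p') := fun i => by
    have h1 := Int.emod_add_mul_ediv (i * q) p
    have h2 := Int.emod_add_mul_ediv (i * q') p'
    have h3 := Int.emod_nonneg (i * q) a.ne'
    have h4 := Int.emod_lt_of_pos (i * q) a
    have h5 := Int.emod_nonneg (i * q') b.ne'
    have h6 := Int.emod_lt_of_pos (i * q') b
    generalize i * q % p = x at *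
    generalize i * q' % p' = y at *
    generalize i * q / p = A at *
    generalize i * q' / p' = B at *
    have h7 : i = p * p' * (A - B) + p' * x - p * y := by
      linear_combination (-i) * e - p' * h1 + p * h2
    have h8 := mul_pos a b
    constructor <;> intro k <;> nlinarith [mul_nonneg b.le h3, mul_nonneg a.le h5,
      mul_le_mul_of_nonneg_left (Int.add_one_le_of_lt h4) b.le,
      mul_le_mul_of_nonneg_left (Int.add_one_le_of_lt h6) a.le]
  refine gap_of (m := fun i => i * q / p - i * q' / p') (c := 0) one_pos (fun i => ?_) (by omega)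
    (by omega) (fun i h1 h2 => ?_) (fun i h1 h2 => ?_) (fun i h1 => ?_) (fun i h1 h2 => ?_)
    (fun i h1 => ?_) fun i h1 h2 => ?_
  · have s1 := dL_shift hp (cop_left h) (i * q)
    have s2 := dL_shift hp' (cop_right h) (i * q')
    have a' : (p : ℚ) ≠ 0 := by exact_mod_cast hp.ne'
    have b' : (p' : ℚ) ≠ 0 := by exact_mod_cast hp'.ne'
    have e' : (p' : ℚ) * q = p * q' + 1 := by exact_mod_cast h
    rw [cast_emod] at s1 s2
    simp only [D, deg, kg, add_mul, one_mul, eq_add_of_sub_eq s1, eq_add_of_sub_eq s2]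
    push_cast
    generalize ((i * q / p : ℤ) : ℚ) = A
    generalize ((i * q' / p' : ℤ) : ℚ) = B
    have k1 : (p' : ℚ) * (2 * (i * q + q) + 1 - q) - p * (2 * (i * q' + q') + 1 - q') =
        p' - p + 1 + 2 * i := by linear_combination (2 * (i : ℚ) + 1) * e'
    have k2 : (p' : ℚ) * (2 * (i * q) + 1 - q) - p * (2 * (i * q') + 1 - q') =
        p' - p - 1 + 2 * i := by linear_combination (2 * (i : ℚ) - 1) * e'
    rw [k1, k2]
    field_simp
    linear_combination (-8 * (i : ℚ)) * e'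
  · obtain rfl : i = 0 := by omega
    simpa using (show ∀ {c d : ℤ}, Rch (fun a c => D p q p' q' a c = 0) 0 0 c d → D p q p' q' 0 0 = 0
      from fun h => by induction h <;> assumption) (stair p q p' q' hp hp' h)
  · have := key i; omega
  · have := key i; omega
  · obtain rfl : i = p := by omega
    have : (p : ℤ) * q' / p' = q - 1 := by
      rw [show (p : ℤ) * q' = p' - 1 + p' * (q - 1) by linear_combination -e,
        Int.add_mul_ediv_left _ _ b.ne', Int.ediv_eq_zero_of_lt (by omega) (by omega), zero_add]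
    rw [this, Int.mul_ediv_cancel_left _ a.ne']; omega
  · have := key i; omega
  · obtain rfl : i = -p' := by omega
    have : -(p' : ℤ) * q / p = -q' - 1 := by
      rw [show -(p' : ℤ) * q = p - 1 + p * (-q' - 1) by linear_combination -e,
        Int.add_mul_ediv_left _ _ a.ne', Int.ediv_eq_zero_of_lt (by omega) (by omega), zero_add]
    rw [this, show -(p' : ℤ) * q' = p' * -q' by ring, Int.mul_ediv_cancel_left _ b.ne']; omega

theorem gap_shear {p q : ℕ} (hp : 0 < p) (hq : 0 < q) (hc : Nat.Coprime p q) :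
    Gap (fun j => dL (p + q) q j - dL p q j - (1 - (2 * (j : ℚ) + 1 - q) ^ 2 / (p * (p + q))) / 4)
      (-p) (p + q) := by
  have a : (0 : ℤ) < p := by exact_mod_cast hp
  have b : (0 : ℤ) < q := by exact_mod_cast hq
  have key : ∀ j : ℤ, (0 ≤ j → j / (p + q) ≤ j / p) ∧ (j < 0 → j / p ≤ j / (p + q)) := fun j => by
    have h1 := Int.emod_add_mul_ediv j p
    have h2 := Int.emod_add_mul_ediv j (p + q)
    have h3 := Int.emod_nonneg j a.ne'
    have h4 := Int.emod_lt_of_pos j a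
    have h5 := Int.emod_nonneg j (add_pos a b).ne'
    have h6 := Int.emod_lt_of_pos j (add_pos a b)
    have h7 : 0 ≤ j → 0 ≤ j / (p + q) := fun h => Int.ediv_nonneg h (add_pos a b).le
    have h8 : j < 0 → j / (p + q) < 0 := fun h => Int.ediv_neg_of_neg_of_pos h (add_pos a b)
    generalize j % p = x at *
    generalize j % (p + q) = y at *
    generalize j / p = A at *
    generalize j / (p + q) = B at *
    constructor <;> intro k <;> by_contra hn
    · nlinarith [h7 k]
    · nlinarith [h8 k]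
  have z1 : ∀ (j n : ℤ), 0 ≤ j → j < n → j / n = 0 := fun j n => Int.ediv_eq_zero_of_lt
  have z2 : ∀ (j n : ℤ), j < 0 → -n ≤ j → j / n = -1 := fun j n h1 h2 => by
    rw [show j = j + n + n * -1 by ring, Int.add_mul_ediv_left _ _ (by omega),
      z1 _ _ (by omega) (by omega), zero_add]
  refine gap_of (m := fun j => j / p - j / (p + q)) (c := 0) b (fun j => ?_) (by omega)
    (by omega) (fun j h1 h2 => ?_) (fun j h1 h2 => ?_) (fun j h1 => ?_) (fun j h1 h2 => ?_)
    (fun j h1 => ?_) fun j h1 h2 => ?_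
  · have s1 := dL_shift hp hc j
    have s2 := dL_shift (q := q) (Nat.add_pos_left hp q) (by simpa using hc) j
    have a' : (p : ℚ) ≠ 0 := by exact_mod_cast hp.ne'
    have b' : (p : ℚ) + q ≠ 0 := by exact_mod_cast (Nat.add_pos_left hp q).ne'
    rw [cast_emod] at s1 s2
    simp only [eq_add_of_sub_eq s1, eq_add_of_sub_eq s2]
    push_cast
    field_simp
    ring
  · rw [shear_eq hp hq hc h1 (by omega)]; ring
  · rcases lt_or_ge j 0 with k | k
    · rw [z2 j p k h1, z2 j _ k (by omega), sub_self]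
    · rw [z1 j p k (by omega), z1 j _ k (by omega), sub_self]
  · have := (key j).1 (by omega); omega
  · rw [z1 j (p + q) (by omega) h2, sub_zero]
    exact Int.lt_of_lt_of_le one_pos (Int.le_ediv_of_mul_le a (by omega))
  · have := (key j).2 (by omega); omega
  · rw [z2 j (p + q) (by omega) (by omega)]
    have : j / p < -1 := Int.ediv_lt_of_lt_mul a (by omega)
    omega

theorem gap_phi {p q : ℕ} (hp : 0 < p) (hq : 0 < q) (hc : Nat.Coprime p q) :
    Gap (fun j => Phi p q j - dL p q j) 0 (p + q) := by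
  have a : (0 : ℤ) < p := by exact_mod_cast hp
  have b : (0 : ℤ) < q := by exact_mod_cast hq
  refine gap_of (m := fun j => j / q) (c := 0) a (fun j => ?_) le_rfl
    (by omega) (fun j h1 h2 => ?_) (fun j h1 h2 => ?_) (fun j h1 => ?_) (fun j h1 h2 => ?_)
    (fun j h1 => ?_) fun j h1 h2 => ?_
  · rw [Phi_add hp hq hc, dL_add]; ring
  · rw [Phi_eq hp hq hc h1 (by omega), sub_self]
  · exact Int.ediv_eq_zero_of_lt h1 (by omega)
  · exact Int.ediv_nonneg (by omega) b.le
  · exact Int.lt_of_lt_of_le one_pos (Int.le_ediv_of_mul_le b (by omega))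
  · exact (Int.ediv_neg_of_neg_of_pos h1 b).le
  · exact Int.ediv_neg_of_neg_of_pos h1 b

/-- reversal of the orientation -/
theorem dL_rev {p r r' : ℕ} (hp : 0 < p) (hc : Nat.Coprime p r) (h : (p : ℤ) ∣ r + r') (j : ℤ) :
    dL p r' j = -dL p r (j + r) := by
  by_cases h1 : p = 1
  · subst h1; simp
  have hz : (0 : ℤ) < p := by exact_mod_cast hp
  have hr : 0 < r % p := Nat.pos_of_ne_zero fun h2 =>
    h1 (Nat.Coprime.eq_one_of_dvd hc (Nat.dvd_of_mod_eq_zero h2))
  have hc' : Nat.Coprime p (r % p) := by rw [Nat.Coprime, Nat.gcd_comm, ← Nat.gcd_rec]; exact hc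
  obtain ⟨s, hs⟩ := Nat.exists_eq_add_of_le' (Nat.mod_lt r hp).le
  have hs0 : 0 < s := by have := Nat.mod_lt r hp; omega
  have e1 : dL p r' j = dL p s (j % p) := by
    refine dL_congr ?_ (by simp)
    have h2 : (s : ℤ) + r % p = p := by exact_mod_cast hs.symm
    have h3 := Int.emod_add_mul_ediv r p
    obtain ⟨t, ht⟩ := h
    exact Int.natCast_modEq_iff.1
      (Int.modEq_iff_dvd.2 ⟨1 + r / p - t, by linear_combination h2 - h3 - ht⟩)
  have e2 := dL_shift hp hc j
  rw [e1, eq_add_of_sub_eq e2, ← dL_mod p r, ← dL_emod p _ j]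
  have h0 := Int.emod_nonneg j hz.ne'
  have h2 := Int.emod_lt_of_pos j hz
  generalize j % (p : ℤ) = i at *
  generalize r % p = u at *
  subst hs
  have hc2 : Nat.Coprime s u := by simpa using hc'
  have e3 := dL_rec hp hs0 (by simpa using hc2.symm) h0 (by omega)
  have e4 := shear_eq hs0 hr hc2 h0 (by exact_mod_cast h2)
  have e5 : dL s (s + u) i = dL s u i := dL_congr (by simp) rfl
  have a' : (s : ℚ) ≠ 0 := by exact_mod_cast hs0.ne'
  have b' : (s : ℚ) + u ≠ 0 := by exact_mod_cast hp.ne'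
  rw [e4, eq_sub_of_add_eq e3, e5]
  push_cast
  field_simp
  ring

/-! ### the model function of `Bor5` -/

theorem D_pos {p : ℕ} (hp : 0 < p) {q : ℤ} {r : ℕ} (h : (p : ℤ) ∣ r - q) (j : ℤ) :
    Bor5.D p q j = dL p r j := by
  have hz : (0 : ℤ) < p := by exact_mod_cast hp
  rw [Bor5.D, if_pos hz, Int.toNat_natCast]
  refine dL_congr (Int.natCast_modEq_iff.1 ?_) rfl
  rw [Int.toNat_of_nonneg (Int.emod_nonneg _ hz.ne')]
  exact (Int.mod_modEq _ _).trans (Int.modEq_iff_dvd.2 h)

theorem D_neg {p : ℤ} (hp : 0 < p) (q j : ℤ) : Bor5.D (-p) q j = -Bor5.D p q j := by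
  rw [Bor5.D, Bor5.D, if_neg (by omega), if_pos hp, neg_neg, Int.emod_neg]

theorem D_nat {p : ℕ} (hp : 0 < p) (q : ℕ) (j : ℤ) : Bor5.D p q j = dL p q j := D_pos hp (by simp) j

theorem D_nat' {p : ℕ} (hp : 0 < p) (q : ℕ) (j : ℤ) : Bor5.D (-p) q j = -dL p q j := by
  rw [D_neg (by exact_mod_cast hp), D_nat hp]

theorem D_emod (p q j : ℤ) : Bor5.D p q (j % p.natAbs) = Bor5.D p q j := by
  unfold Bor5.D
  split_ifs with h
  · rw [← dL_emod _ _ j, show ((p.toNat : ℕ) : ℤ) = p.natAbs by omega]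
  · rw [← dL_emod _ _ j, show (((-p).toNat : ℕ) : ℤ) = p.natAbs by omega]

theorem Dc_cast {X : Ob} {p : ℤ} (h : X.P = p.natAbs) (q j : ℤ) :
    Dc X p q (j : ZMod X.P) = Bor5.D p q j := by
  rw [Dc, ZMod.val_intCast, h, D_emod]

theorem sumStmt : SumStmt := by
  refine ⟨fun p q _ hp => ?_, fun p hp => ?_, fun q j => ?_, fun X p q h => ?_⟩
  · simp only [Sd, Int.natAbs_neg, D_neg hp, Finset.sum_neg_distrib]
  · obtain ⟨n, rfl⟩ := Int.eq_ofNat_of_zero_le (a := p) (by omega)
    have hn : 0 < n := by omega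
    have h1 : ∀ (c : ℚ) (k : ℕ), ∑ j ∈ Finset.range k, (2 * (j : ℚ) - c) ^ 2 =
        k * c ^ 2 - 2 * c * k * (k - 1) + 2 * k * (k - 1) * (2 * k - 1) / 3 := fun c k => by
      induction k with
      | zero => simp
      | succ k ih => rw [Finset.sum_range_succ, ih]; push_cast; ring
    have h2 : (3 : ℚ) ≤ n := by exact_mod_cast hp
    have h3 : Sd n 1 = ∑ j ∈ Finset.range n, (-1 / 4 + (2 * (j : ℚ) - n) ^ 2 / (4 * n)) := by
      refine Finset.sum_congr (by simp) fun j hj => ?_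
      rw [Finset.mem_range] at hj
      rw [show (1 : ℤ) = (1 : ℕ) from rfl, D_nat hn,
        ← Phi_eq hn one_pos (by simp) (by omega) (by omega), Phi, dL_one]
      push_cast; ring
    rw [h3, Finset.sum_add_distrib, ← Finset.sum_div, ← Finset.sum_div, h1]
    have h4 : (∑ _j ∈ Finset.range n, (-1 : ℚ)) / 4 + ((n : ℚ) * n ^ 2 - 2 * n * n * (n - 1) +
        2 * n * (n - 1) * (2 * n - 1) / 3) / (4 * n) = (n - 1) * (n - 2) / 12 := by
      rw [Finset.sum_const, Finset.card_range, nsmul_eq_mul]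
      field_simp
      ring
    rw [h4]
    exact div_ne_zero (mul_ne_zero (by linarith) (by linarith)) (by norm_num)
  · rw [Bor5.D, if_pos one_pos]; exact dL_one _ _
  · rw [Sd, ← h]
    refine Finset.sum_bij (fun s _ => s.val) (fun s _ => Finset.mem_range.2 (ZMod.val_lt s))
      (fun s _ t _ e => ZMod.val_injective _ e)
      (fun j hj => ⟨j, Finset.mem_univ _, ZMod.val_cast_of_lt (Finset.mem_range.1 hj)⟩) fun _ _ => rfl

/-! ### sharpness -/

theorem sharp_neg {A B : Ob} {f : Fam A B} {D : ZMod A.P → ℚ} {D' : ZMod B.P → ℚ}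
    (h : f.Sharp D D') : f.neg.Sharp D D' := fun κ hκ => by
  have := h (-κ) (by
    obtain ⟨t, ht⟩ := hκ
    exact ⟨t - κ, by linear_combination ht⟩)
  rwa [abs_neg] at this

theorem sharp_of {A B : Ob} {f : Fam A B} {D : ZMod A.P → ℚ} {D' : ZMod B.P → ℚ} {G : ℤ → ℚ}
    {a b c ε : ℤ} (hG : Gap G a b) (hε : ε = 1 ∨ ε = -1) (hc : Even (c + A.P * B.P))
    (ha : c + 2 * a = 1 - (A.P + B.P)) (hb : c + 2 * b = 1 + (A.P + B.P))
    (h : ∀ i, D' (f.t (ε * (c + 2 * i))) - D (f.s (ε * (c + 2 * i))) - f.dg (ε * (c + 2 * i)) = G i) :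
    f.Sharp D D' := fun κ hκ => by
  obtain ⟨t, ht⟩ := hκ
  obtain ⟨u, hu⟩ := hc
  obtain ⟨i, rfl⟩ : ∃ i, κ = ε * (c + 2 * i) := by
    rcases hε with rfl | rfl
    · exact ⟨t - u, by linear_combination ht - hu⟩
    · exact ⟨A.P * B.P - t - u, by linear_combination ht + hu⟩
  obtain ⟨n, e, hn⟩ := hG i
  refine ⟨n, by rw [← e, ← h i]; ring, hn.trans ?_⟩
  rw [abs_lt]
  rcases hε with rfl | rfl <;> omega

theorem even_cop {p p' : ℕ} (h : Nat.Coprime p p') : Even ((p' : ℤ) - p - 1 + p * p') := by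
  rcases Nat.even_or_odd' p with ⟨a, rfl | rfl⟩ <;> rcases Nat.even_or_odd' p' with ⟨b, rfl | rfl⟩
  · exact absurd (Nat.Coprime.eq_one_of_dvd (h.coprime_dvd_left (Dvd.intro _ rfl))
      (Dvd.intro _ rfl)) (by norm_num)
  · exact ⟨b - a + a * (2 * b + 1), by push_cast; ring⟩
  · exact ⟨b - a - 1 + (2 * a + 1) * b, by push_cast; ring⟩
  · exact ⟨b - a + 2 * a * b + a + b, by push_cast; ring⟩

theorem nat_cop {p q : ℕ} (h : IsCoprime (p : ℤ) q) : Nat.Coprime p q := Nat.isCoprime_iff_coprime.1 h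

theorem sharp_ed (S : Bor5.Far) {p q p' q' : ℤ} (h : Ed p q p' q') :
    (S.F p q p' q').Sharp (S.D p q) (S.D p' q') := by
  obtain ⟨h1, h2, h3, h4⟩ := id h
  have s1 : Sl p q := ⟨left_ne_zero_of_mul h1.ne', h2, -q', p', by linear_combination h4⟩
  have s2 : Sl p' q' := ⟨right_ne_zero_of_mul h1.ne', h3, q, -p, by linear_combination h4⟩
  have P1 := S.hP p q s1
  have P2 := S.hP p' q' s2
  have v : ∀ j j', S.D p' q' ((S.F p q p' q').t (kap p q p' q' j j')) -
      S.D p q ((S.F p q p' q').s (kap p q p' q' j j')) - (S.F p q p' q').dg (kap p q p' q' j j') =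
      Bor5.D p' q' j' - Bor5.D p q j -
        (1 - (kap p q p' q' j j' : ℚ) ^ 2 / (p.natAbs * p'.natAbs)) / 4 := fun j j' => by
    rw [(S.lab p q p' q' h j j').1, (S.lab p q p' q' h j j').2, (S.neg p q p' q' h).dg, Bor5.Far.D, Bor5.Far.D,
      Dc_cast P1, Dc_cast P2, P1, P2]
  lift q to ℕ using h2
  lift q' to ℕ using h3
  rcases mul_pos_iff.1 h1 with ⟨a, b⟩ | ⟨a, b⟩
  · lift p to ℕ using a.le
    lift p' to ℕ using b.le
    have a' : 0 < p := by omega
    have b' : 0 < p' := by omega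
    have e : p' * q = p * q' + 1 := by zify; linear_combination h4
    simp only [Int.natAbs_natCast] at P1 P2 v
    refine sharp_of (c := p' - p - 1) (gap_edge a' b' e) (.inl rfl) ?_ (by omega) (by omega) fun i => ?_
    · rw [P1, P2]; exact even_cop (S.neg _ _ _ _ h).cop |>.imp fun _ k => by rwa [P1, P2] at k
    · rw [show 1 * ((p' : ℤ) - p - 1 + 2 * i) = kap p q p' q' (i * q) (i * q') by
        rw [kap]; linear_combination (1 - 2 * i) * h4, v, D_nat a', D_nat b', D, deg, kg, kap]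
      push_cast; ring
  · obtain ⟨p, rfl⟩ : ∃ n : ℕ, p = -n := ⟨p.natAbs, by omega⟩
    obtain ⟨p', rfl⟩ : ∃ n : ℕ, p' = -n := ⟨p'.natAbs, by omega⟩
    have a' : 0 < p := by omega
    have b' : 0 < p' := by omega
    have e : p * q' = p' * q + 1 := by zify; linear_combination h4
    simp only [Int.natAbs_neg, Int.natAbs_natCast] at P1 P2 v
    refine sharp_of (c := p - p' - 1) (gap_edge b' a' e) (.inl rfl) ?_ (by omega) (by omega) fun i => ?_
    · rw [mul_comm, P1, P2]
      exact even_cop (S.neg _ _ _ _ h).cop.symm |>.imp fun _ k => by rwa [P1, P2] at k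
    · rw [show 1 * ((p : ℤ) - p' - 1 + 2 * i) = kap (-p) q (-p') q' (i * q) (i * q') by
        rw [kap]; linear_combination (1 - 2 * i) * h4, v, D_nat' a', D_nat' b', D, deg, kg, kap]
      push_cast; ring

theorem even_shear {p q : ℕ} (h : Nat.Coprime p q) : Even (1 - (q : ℤ) + p * (p + q)) := by
  obtain ⟨t, ht⟩ := even_cop h
  obtain ⟨u, hu⟩ := Int.even_mul_succ_self p
  exact ⟨t + u + 1 - q, by linear_combination ht + hu⟩

theorem sharp_shr (S : Sys) {p q p' : ℤ} (s1 : Sl p q) (hq : 2 ≤ q) (e : p' = p + q)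
    (w : Shr (S.F p q p' q) p q) :
    (0 < p ∨ p' < 0 → (S.F p q p' q).Sharp (S.D p q) (S.D p' q)) ∧
    (0 < p' → w.b.G.Sharp (S.D p' q) w.Λ.d ∧ w.b.G.neg.Sharp (S.D p' q) w.Λ.d) ∧
    (p < 0 → w.a.G'.Sharp w.Λ.d (S.D p q) ∧ w.a.G'.neg.Sharp w.Λ.d (S.D p q)) := by
  have s2 : p' ≠ 0 → Sl p' q := fun h => ⟨h, s1.2.1, by
    rw [e]; simpa using s1.2.2.add_mul_left_left 1⟩
  have P1 := S.hP p q s1
  have P3 := w.hP
  have p0 := s1.1
  lift q to ℕ using s1.2.1
  have q0 : 0 < q := by omega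
  rw [Int.natAbs_natCast] at P3
  refine ⟨fun h => ?_, fun h => ?_, fun h => ?_⟩
  · have s3 := s2 (by omega)
    have P2 := S.hP p' q s3
    have ng : (S.F p q p' q).Neg := h.elim (fun h => (w.pp h).nf) fun h => (w.nn (e ▸ h)).ng
    have v : ∀ j : ℤ, S.D p' q ((S.F p q p' q).t (1 * (1 - q + 2 * j))) -
        S.D p q ((S.F p q p' q).s (1 * (1 - q + 2 * j))) - (S.F p q p' q).dg (1 * (1 - q + 2 * j)) =
        Bor5.D p' q j - Bor5.D p q j -
          (1 - (2 * (j : ℚ) + 1 - q) ^ 2 / (p.natAbs * p'.natAbs)) / 4 := fun j => by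
      rw [show 1 * (1 - (q : ℤ) + 2 * j) = 2 * j + 1 - q by ring, (S.labT p q p' s1 hq e j).1,
        (S.labT p q p' s1 hq e j).2, ng.dg, Sys.D, Sys.D, Dc_cast P1, Dc_cast P2, P1, P2]
      push_cast; rfl
    rcases h with h | h
    · lift p to ℕ using h.le
      have a' : 0 < p := by omega
      obtain rfl : p' = (p + q : ℕ) := by rw [e]; push_cast; rfl
      simp only [Int.natAbs_natCast] at P1 P2 v
      refine sharp_of (gap_shear a' q0 (nat_cop s1.2.2)) (.inl rfl) ?_ (by omega) (by omega)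
        fun j => (v j).trans ?_
      · rw [P1, P2]; push_cast; exact even_shear (nat_cop s1.2.2)
      · rw [D_nat a', D_nat (by omega)]; push_cast; rfl
    · obtain ⟨p', rfl⟩ : ∃ n : ℕ, p' = -n := ⟨p'.natAbs, by omega⟩
      have a' : 0 < p' := by omega
      obtain rfl : p = -(p' + q : ℕ) := by push_cast; omega
      have hc : Nat.Coprime p' q := nat_cop (by simpa using s3.2.2.neg_left)
      simp only [Int.natAbs_neg, Int.natAbs_natCast] at P1 P2 v
      refine sharp_of (gap_shear a' q0 hc) (.inl rfl) ?_ (by omega) (by omega)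
        fun j => (v j).trans ?_
      · rw [mul_comm, P1, P2]; push_cast; exact even_shear hc
      · rw [D_nat' a', D_nat' (by omega)]; push_cast; ring
  · refine (fun h => ⟨h, sharp_neg h⟩) ?_
    have s3 := s2 h.ne'
    have P2 := S.hP p' q s3
    have dg : ∀ κ : ℤ, w.b.G.dg κ = (1 - (κ : ℚ) ^ 2 / ((S.Y p' q).P * w.Λ.P)) / 4 := fun κ => by
      rcases lt_or_gt_of_ne p0 with k | k
      · have := (w.np k (e ▸ h)).nf.dg (-κ)
        simpa [Fam.neg] using this
      · exact (w.pp k).ng.dg κ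
    lift p' to ℕ using h.le
    have a' : 0 < p' := by omega
    have hc := nat_cop s3.2.2
    rw [Int.natAbs_natCast] at P2
    refine sharp_of (c := 1 - q - p') (gap_phi a' q0 hc) (.inl rfl) ?_ (by omega) (by omega)
      fun j => ?_
    · rw [P2, P3]
      obtain ⟨t, ht⟩ := even_cop hc
      exact ⟨t + 1 - q, by linear_combination ht⟩
    · rw [show 1 * (1 - (q : ℤ) - p' + 2 * j) = 2 * j + 1 - q - (p + q) by rw [← e]; ring,
        (w.b.sG j).1, (w.b.sG j).2, dg, w.hd, Sys.D, Dc_cast (by simpa using P2), P2, P3, ← e,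
        D_nat a', D_pos q0 (r := p') ⟨1, by omega⟩, Phi]
      push_cast; ring
  · refine (fun h => ⟨h, sharp_neg h⟩) ?_
    have dg : ∀ κ : ℤ, w.a.G'.dg κ = (1 - (κ : ℚ) ^ 2 / (w.Λ.P * (S.Y p q).P)) / 4 := fun κ => by
      rcases lt_trichotomy (p + q) 0 with k | k | k
      · have := (w.nn k).nf.dg (-κ)
        simpa [Fam.neg] using this
      · have h1 : IsUnit (q : ℤ) := s1.2.2.isUnit_of_dvd' ⟨-1, by omega⟩ dvd_rfl
        rw [Int.isUnit_iff] at h1; omega
      · exact (w.np h k).ng.dg κ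
    obtain ⟨p, rfl⟩ : ∃ n : ℕ, p = -n := ⟨p.natAbs, by omega⟩
    have a' : 0 < p := by omega
    have hc : Nat.Coprime p q := nat_cop (by simpa using s1.2.2.neg_left)
    rw [Int.natAbs_neg, Int.natAbs_natCast] at P1
    refine sharp_of (c := 1 - q - p) (gap_phi a' q0 hc) (.inr rfl) ?_ (by omega) (by omega)
      fun j => ?_
    · rw [P1, P3]
      obtain ⟨t, ht⟩ := even_cop hc
      exact ⟨t + 1 - q, by linear_combination ht⟩
    · rw [show -1 * (1 - (q : ℤ) - p + 2 * j) = -p - (2 * (j - p) + 1 - q) by ring,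
        (w.a.sG' _).1, (w.a.sG' _).2, dg, w.hd, Sys.D, Dc_cast (by simpa using P1), P1, P3,
        D_nat' a', D_pos q0 (r := p * (q - 1)) ⟨p, by push_cast [q0]; ring⟩,
        dL_rev (r := p) q0 hc.symm ⟨p, by push_cast [q0]; ring⟩, sub_add_cancel, Phi,
        ← dL_add p q (j - p), sub_add_cancel]
      push_cast; ring

theorem sharpStmt : SharpStmt := fun S =>
  ⟨fun _ _ _ _ h => sharp_ed S.toFar h, fun _ _ _ s1 hq e w => sharp_shr S s1 hq e w⟩

end Crest.Agent.X212.Lens8
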