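import Mathlib

/-! Correction terms of lens spaces as an explicit recursion, and their basic identities. -/

namespace Crest.Agent.X212.Lens8

/-- `dL p q j` is the correction term of `p/q` surgery on the unknot in the label `j`. -/
def dL : ℕ → ℕ → ℤ → ℚ
  | 0, _, _ => 0
  | p + 1, q, j =>
    if _h : q % (p + 1) = 0 then 0 else
      -1 / 4 + (2 * ((j % ((p + 1 : ℕ) : ℤ) : ℤ) : ℚ) + 1 - ((p + 1 : ℕ) : ℚ)
          - ((q % (p + 1) : ℕ) : ℚ)) ^ 2 / (4 * ((p + 1 : ℕ) : ℚ) * ((q % (p + 1) : ℕ) : ℚ))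
        - dL (q % (p + 1)) (p + 1) (j % ((p + 1 : ℕ) : ℤ))
termination_by p => p
decreasing_by exact Nat.mod_lt _ (Nat.succ_pos _)

theorem dL_def {p : ℕ} (hp : 0 < p) (q : ℕ) (j : ℤ) :
    dL p q j = if q % p = 0 then 0 else
      -1 / 4 + (2 * ((j % (p : ℤ) : ℤ) : ℚ) + 1 - (p : ℚ) - ((q % p : ℕ) : ℚ)) ^ 2
          / (4 * (p : ℚ) * ((q % p : ℕ) : ℚ)) - dL (q % p) p (j % (p : ℤ)) := by
  obtain ⟨p, rfl⟩ : ∃ k, p = k + 1 := ⟨p - 1, by omega⟩
  rw [dL]
  split_ifs <;> rfl

@[simp] theorem dL_zero (q : ℕ) (j : ℤ) : dL 0 q j = 0 := by rw [dL]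

@[simp] theorem dL_one (q : ℕ) (j : ℤ) : dL 1 q j = 0 := by
  rw [dL_def one_pos]; simp [Nat.mod_one]

theorem dL_congr {p q q' : ℕ} {j j' : ℤ} (hq : q % p = q' % p)
    (hj : j % (p : ℤ) = j' % (p : ℤ)) : dL p q j = dL p q' j' := by
  rcases Nat.eq_zero_or_pos p with rfl | hp
  · simp
  · rw [dL_def hp, dL_def hp, hq, hj]

theorem dL_mod (p q : ℕ) (j : ℤ) : dL p (q % p) j = dL p q j := dL_congr (by simp) rfl

theorem dL_emod (p q : ℕ) (j : ℤ) : dL p q (j % (p : ℤ)) = dL p q j := dL_congr rfl (by simp)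

theorem dL_add_mul (p q : ℕ) (j t : ℤ) : dL p q (j + t * p) = dL p q j :=
  dL_congr rfl (by simp)

theorem dL_add (p q : ℕ) (j : ℤ) : dL p q (j + p) = dL p q j := dL_congr rfl (by simp)

theorem dL_shear (p q k : ℕ) (j : ℤ) : dL p (q + k * p) j = dL p q j := dL_congr (by simp) rfl

theorem dL_modEq {p q : ℕ} {j j' : ℤ} (h : j ≡ j' [ZMOD p]) : dL p q j = dL p q j' :=
  dL_congr rfl h

/-- reciprocity for `q < p`, from the shift formula one level down -/
private theorem rec_of {p q : ℕ} (hq : 0 < q) (hqp : q < p)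
    (H : ∀ i : ℤ, 0 ≤ i → i < q → dL q p (i + p) - dL q p i = (2 * i + 1 - q) / q)
    (j : ℤ) (h0 : 0 ≤ j) (h1 : j < p + q) :
    dL p q j + dL q p j = -1 / 4 + (2 * j + 1 - p - q) ^ 2 / (4 * p * q) := by
  have hp : 0 < p := by omega
  have hr : q % p = q := Nat.mod_eq_of_lt hqp
  have base : ∀ i : ℤ, 0 ≤ i → i < p →
      dL p q i + dL q p i = -1 / 4 + (2 * i + 1 - p - q) ^ 2 / (4 * p * q) := by
    intro i hi0 hi1
    rw [dL_def hp, hr, if_neg hq.ne', Int.emod_eq_of_lt hi0 hi1]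
    ring
  by_cases hj : j < p
  · exact base j h0 hj
  · have h2 := base (j - p) (by omega) (by omega)
    have h3 := H (j - p) (by omega) (by omega)
    have h4 := dL_add p q (j - p)
    rw [sub_add_cancel] at h3 h4
    have hp' : (p : ℚ) ≠ 0 := by exact_mod_cast hp.ne'
    have hq' : (q : ℚ) ≠ 0 := by exact_mod_cast hq.ne'
    push_cast at h2 h3
    rw [h4]
    have : dL q p j = dL q p (j - p) + (2 * ((j : ℚ) - p) + 1 - q) / q := by linarith
    rw [this, ← add_assoc, h2]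
    field_simp
    ring

theorem shift_aux (p : ℕ) : ∀ q : ℕ, 0 < p → Nat.Coprime p q → ∀ i : ℤ, 0 ≤ i → i < p →
    dL p q (i + q) - dL p q i = (2 * i + 1 - p) / p := by
  induction p using Nat.strong_induction_on with
  | _ p ih =>
    intro q hp hc i h0 h1
    by_cases h : p = 1
    · subst h
      have : i = 0 := by omega
      subst this; simp
    have hr : 0 < q % p := by
      rcases Nat.eq_zero_or_pos (q % p) with h2 | h2
      · exact absurd (Nat.Coprime.eq_one_of_dvd hc (Nat.dvd_of_mod_eq_zero h2)) h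
      · exact h2
    have hlt : q % p < p := Nat.mod_lt _ hp
    have hc' : Nat.Coprime (q % p) p := by
      rw [Nat.Coprime, ← Nat.gcd_rec]; exact hc
    have R := rec_of hr hlt (ih _ hlt p hr hc')
    have e1 := R i h0 (by omega)
    have e2 := R (i + (q % p : ℕ)) (by omega) (by omega)
    rw [dL_add] at e2
    have e3 : dL p q (i + q) = dL p (q % p) (i + (q % p : ℕ)) :=
      dL_congr (by simp) (by push_cast; simp)
    rw [e3, ← dL_mod p q i]
    have hp' : (p : ℚ) ≠ 0 := by exact_mod_cast hp.ne'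
    have hq' : ((q % p : ℕ) : ℚ) ≠ 0 := by exact_mod_cast hr.ne'
    generalize q % p = r at *
    push_cast at e2
    have : dL p r (i + r) - dL p r i = (2 * ((i : ℚ) + r) + 1 - p - r) ^ 2 / (4 * p * r)
        - (2 * i + 1 - p - r) ^ 2 / (4 * p * r) := by linarith
    rw [this]
    field_simp
    ring

/-- SHIFT: `d(j+q) - d(j) = (2 (j mod p) + 1 - p)/p`. -/
theorem dL_shift {p q : ℕ} (hp : 0 < p) (hc : Nat.Coprime p q) (j : ℤ) :
    dL p q (j + q) - dL p q j = (2 * ((j % (p : ℤ) : ℤ) : ℚ) + 1 - p) / p := by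
  have hp' : (0 : ℤ) < p := by exact_mod_cast hp
  rw [← shift_aux p q hp hc (j % p) (Int.emod_nonneg _ hp'.ne') (Int.emod_lt_of_pos _ hp'),
    dL_emod]
  congr 1
  exact dL_congr rfl (by simp)

/-- RECIPROCITY on the window `0 ≤ j < p + q`. -/
theorem dL_rec {p q : ℕ} (hp : 0 < p) (hq : 0 < q) (hc : Nat.Coprime p q) {j : ℤ} (h0 : 0 ≤ j)
    (h1 : j < p + q) :
    dL p q j + dL q p j = -1 / 4 + (2 * j + 1 - p - q) ^ 2 / (4 * p * q) := by
  rcases lt_trichotomy q p with h | h | h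
  · exact rec_of hq h (shift_aux q p hq hc.symm) j h0 h1
  · subst h
    have : q = 1 := by simpa using hc
    subst this
    have : j = 0 ∨ j = 1 := by omega
    rcases this with rfl | rfl <;> norm_num
  · have := rec_of hp h (shift_aux p q hp hc) j h0 (by omega)
    rw [add_comm, this]; ring

/-- bottom degree of the `j`-th tower of the cone -/
def Phi (p q : ℕ) (j : ℤ) : ℚ :=
  -1 / 4 + (2 * j + 1 - p - q) ^ 2 / (4 * p * q) - dL q p j

theorem Phi_eq {p q : ℕ} (hp : 0 < p) (hq : 0 < q) (hc : Nat.Coprime p q) {j : ℤ} (h0 : 0 ≤ j)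
    (h1 : j < p + q) : Phi p q j = dL p q j := by
  rw [Phi, ← dL_rec hp hq hc h0 h1]; ring

theorem Phi_add {p q : ℕ} (hp : 0 < p) (hq : 0 < q) (hc : Nat.Coprime p q) (j : ℤ) :
    Phi p q (j + p) = Phi p q j + 2 * ((j / (q : ℤ) : ℤ) : ℚ) := by
  have h := dL_shift hq hc.symm j
  have hp' : (p : ℚ) ≠ 0 := by exact_mod_cast hp.ne'
  have hq' : (q : ℚ) ≠ 0 := by exact_mod_cast hq.ne'
  have e : (j : ℚ) = ((j % (q : ℤ) : ℤ) : ℚ) + q * ((j / (q : ℤ) : ℤ) : ℚ) := by
    exact_mod_cast (Int.emod_add_mul_ediv j q).symm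
  have : dL q p (j + p) = dL q p j + (2 * ((j % (q : ℤ) : ℤ) : ℚ) + 1 - q) / q := by linarith
  rw [Phi, Phi, this]
  push_cast
  generalize ((j % (q : ℤ) : ℤ) : ℚ) = a at *
  generalize ((j / (q : ℤ) : ℤ) : ℚ) = b at *
  rw [e]
  field_simp
  ring

theorem dL_le_Phi {p q : ℕ} (hp : 0 < p) (hq : 0 < q) (hc : Nat.Coprime p q) (j : ℤ) :
    dL p q j ≤ Phi p q j := by
  have hp' : (0 : ℤ) < p := by exact_mod_cast hp
  have hq' : (0 : ℤ) < q := by exact_mod_cast hq
  have h0 := Int.emod_nonneg j hp'.ne'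
  have h1 := Int.emod_lt_of_pos j hp'
  have key : ∀ t : ℤ, dL p q j ≤ Phi p q (j % p + t * p) := by
    intro t
    induction t using Int.induction_on with
    | zero => rw [zero_mul, add_zero, Phi_eq hp hq hc h0 (by omega), dL_emod]
    | succ n ih =>
      rw [add_mul, one_mul, ← add_assoc, Phi_add hp hq hc]
      have : (0 : ℤ) ≤ (j % p + n * p) / q := Int.ediv_nonneg (by positivity) hq'.le
      have : (0 : ℚ) ≤ (((j % p + n * p) / q : ℤ) : ℚ) := by exact_mod_cast this
      linarith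
    | pred n ih =>
      have e := Phi_add hp hq hc (j % p + (-(n : ℤ) - 1) * p)
      have e2 : j % p + (-(n : ℤ) - 1) * p + p = j % p + -(n : ℤ) * p := by ring
      rw [e2] at e
      have : (j % p + (-(n : ℤ) - 1) * p) / q < 0 := by
        apply Int.ediv_neg_of_neg_of_pos _ hq'
        nlinarith [Int.natCast_nonneg n]
      have : (((j % p + (-(n : ℤ) - 1) * p) / q : ℤ) : ℚ) < 0 := by exact_mod_cast this
      linarith
  have := key (j / p)
  rwa [mul_comm, Int.emod_add_mul_ediv] at this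

/-- conjugation symmetry -/
theorem dL_conj (p : ℕ) : ∀ q : ℕ, Nat.Coprime p q → ∀ j : ℤ, dL p q (q - 1 - j) = dL p q j := by
  induction p using Nat.strong_induction_on with
  | _ p ih =>
    intro q hc j
    rcases Nat.eq_zero_or_pos p with rfl | hp
    · simp
    by_cases h : p = 1
    · subst h; simp
    have hr : 0 < q % p := by
      rcases Nat.eq_zero_or_pos (q % p) with h2 | h2
      · exact absurd (Nat.Coprime.eq_one_of_dvd hc (Nat.dvd_of_mod_eq_zero h2)) h
      · exact h2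
    have hlt : q % p < p := Nat.mod_lt _ hp
    have hc' : Nat.Coprime (q % p) p := by
      rw [Nat.Coprime, ← Nat.gcd_rec]; exact hc
    have hp' : (0 : ℤ) < p := by exact_mod_cast hp
    have h0 := Int.emod_nonneg j hp'.ne'
    have h1 := Int.emod_lt_of_pos j hp'
    have e1 := dL_rec hp hr hc'.symm h0 (by omega)
    have e2 := dL_rec hp hr hc'.symm (j := p + (q % p : ℕ) - 1 - j % p) (by omega) (by omega)
    have e3 : dL p (q % p) (p + (q % p : ℕ) - 1 - j % p) = dL p q (q - 1 - j) := by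
      refine dL_congr (by simp) ?_
      have a : (q : ℤ) = (q % p : ℕ) + p * (q / p : ℕ) := by exact_mod_cast (Nat.mod_add_div q p).symm
      have b := Int.emod_add_mul_ediv j p
      refine Int.ModEq.eq ((Int.modEq_iff_dvd).2 ⟨(q / p : ℕ) - 1 - j / p, ?_⟩)
      generalize ((q % p : ℕ) : ℤ) = r at *
      generalize ((q / p : ℕ) : ℤ) = s at *
      linear_combination a + b
    have e4 : dL (q % p) p (p + (q % p : ℕ) - 1 - j % p) = dL (q % p) p (j % p) := by
      rw [← ih _ hlt p hc' (j % p), ← dL_add (q % p) p (p - 1 - j % p)]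
      congr 1; ring
    rw [e3, e4] at e2
    rw [dL_emod, dL_mod] at e1
    generalize q % p = r at *
    generalize j % (p : ℤ) = i at *
    push_cast at e2
    have : (2 * ((p : ℚ) + r - 1 - i) + 1 - p - r) ^ 2 = (2 * (i : ℚ) + 1 - p - r) ^ 2 := by
      ring
    rw [this] at e2
    linarith

end Crest.Agent.X212.Lens8
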