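import Crest.Agent.X212.Lens8.D

/-! Farey edges: degree of a class, the inequality, the staircase and the matching lemma. -/

namespace Crest.Agent.X212.Lens8

/-- `K·g` of the class `(j,j')` on the edge `p/q → p'/q'` -/
def kg (p q p' q' : ℕ) (j j' : ℤ) : ℤ := p' * (2 * j + 1 - q) - p * (2 * j' + 1 - q')

/-- degree `(K²+1)/4` of the class `(j,j')` on a negative definite edge -/
def deg (p q p' q' : ℕ) (j j' : ℤ) : ℚ := (1 - (kg p q p' q' j j' : ℚ) ^ 2 / (p * p')) / 4

/-- defect of the class `(j,j')` for the unknot -/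
def D (p q p' q' : ℕ) (j j' : ℤ) : ℚ := dL p' q' j' - dL p q j - deg p q p' q' j j'

theorem kg_add (p q p' q' : ℕ) (j j' t : ℤ) :
    kg p q p' q' (j + t * p) (j' + t * p') = kg p q p' q' j j' := by unfold kg; ring

theorem deg_add (p q p' q' : ℕ) (j j' t : ℤ) :
    deg p q p' q' (j + t * p) (j' + t * p') = deg p q p' q' j j' := by rw [deg, kg_add, deg]

theorem D_add (p q p' q' : ℕ) (j j' t : ℤ) :
    D p q p' q' (j + t * p) (j' + t * p') = D p q p' q' j j' := by
  rw [D, deg_add, dL_add_mul, dL_add_mul, D]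

theorem kg_shear (p q p' q' k : ℕ) (j j' : ℤ) :
    kg p (q + k * p) p' (q' + k * p') j j' = kg p q p' q' j j' := by unfold kg; push_cast; ring

theorem D_shear (p q p' q' k : ℕ) (j j' : ℤ) :
    D p (q + k * p) p' (q' + k * p') j j' = D p q p' q' j j' := by
  rw [D, deg, kg_shear, dL_shear, dL_shear, D, deg]

theorem cop_left {p q p' q' : ℕ} (h : p' * q = p * q' + 1) : Nat.Coprime p q := by
  have : Nat.gcd p q ∣ 1 := by
    have a : Nat.gcd p q ∣ p' * q := Dvd.dvd.mul_left (Nat.gcd_dvd_right _ _) _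
    have b : Nat.gcd p q ∣ p * q' := Dvd.dvd.mul_right (Nat.gcd_dvd_left _ _) _
    rw [h] at a
    exact (Nat.dvd_add_right b).1 a
  exact Nat.dvd_one.1 this

theorem cop_right {p q p' q' : ℕ} (h : p' * q = p * q' + 1) : Nat.Coprime p' q' := by
  have : Nat.gcd p' q' ∣ 1 := by
    have a : Nat.gcd p' q' ∣ p' * q := Dvd.dvd.mul_right (Nat.gcd_dvd_left _ _) _
    have b : Nat.gcd p' q' ∣ p * q' := Dvd.dvd.mul_left (Nat.gcd_dvd_right _ _) _
    rw [h] at a
    exact (Nat.dvd_add_right b).1 a
  exact Nat.dvd_one.1 this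

/-- the cone version of the defect is the defect of the reciprocal edge -/
theorem Phi_edge {p q p' q' : ℕ} (hp : 0 < p) (hp' : 0 < p') (hq' : 0 < q')
    (h : p' * q = p * q' + 1) (j j' : ℤ) :
    Phi p' q' j' - Phi p q j - deg p q p' q' j j' = D q' p' q p j' j := by
  have hq : 0 < q := by
    rcases Nat.eq_zero_or_pos q with rfl | hq
    · simp at h
    · exact hq
  have a : (p : ℚ) ≠ 0 := by exact_mod_cast hp.ne'
  have b : (p' : ℚ) ≠ 0 := by exact_mod_cast hp'.ne'
  have c : (q : ℚ) ≠ 0 := by exact_mod_cast hq.ne'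
  have d : (q' : ℚ) ≠ 0 := by exact_mod_cast hq'.ne'
  have e : (p' : ℚ) * q = p * q' + 1 := by exact_mod_cast h
  simp only [Phi, D, deg, kg]
  push_cast
  generalize dL q p j = x
  generalize dL q' p' j' = y
  set X : ℚ := 2 * j + 1 - p - q with hX
  set X' : ℚ := 2 * j' + 1 - p' - q' with hX'
  have e1 : (p' : ℚ) * (2 * j + 1 - q) - p * (2 * j' + 1 - q') = p' * X - p * X' := by
    rw [hX, hX']; ring
  have e2 : (q : ℚ) * (2 * j' + 1 - p') - q' * (2 * j + 1 - p) = q * X' - q' * X := by
    rw [hX, hX']; ring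
  rw [e1, e2]
  clear_value X X'
  field_simp
  linear_combination (q' * p' * X ^ 2 - p * q * X' ^ 2) * e

theorem D_nonneg_aux (n : ℕ) : ∀ p q p' q' : ℕ, p + p' ≤ n → 0 < p → 0 < p' →
    p' * q = p * q' + 1 → ∀ j j' : ℤ, 0 ≤ D p q p' q' j j' := by
  induction n with
  | zero => intro p q p' q' hn hp; omega
  | succ n ih =>
    intro p q p' q' hn hp hp' h j j'
    -- reduce `q'` below `p'`
    obtain ⟨r', k, hr', rfl⟩ : ∃ r' k, r' < p' ∧ q' = r' + k * p' :=
      ⟨q' % p', q' / p', Nat.mod_lt _ hp', by rw [mul_comm]; exact (Nat.mod_add_div _ _).symm⟩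
    obtain ⟨r, rfl⟩ : ∃ r, q = r + k * p := by
      refine ⟨q - k * p, ?_⟩
      have : k * p ≤ q := by
        by_contra hc
        rw [not_le] at hc
        nlinarith
      omega
    rw [D_shear]
    have h1 : p' * r = p * r' + 1 := by nlinarith
    have hr : 0 < r := by
      rcases Nat.eq_zero_or_pos r with rfl | hr
      · simp at h1
      · exact hr
    have hrp : r ≤ p := by
      by_contra hc
      rw [not_le] at hc
      nlinarith
    -- normalise `j'`
    have hz : (0 : ℤ) < p' := by exact_mod_cast hp'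
    have e : D p r p' r' j j' = D p r p' r' (j - j' / p' * p) (j' % p') := by
      rw [← D_add p r p' r' (j - j' / p' * p) (j' % p') (j' / p')]
      congr 1
      · ring
      · rw [mul_comm]; exact (Int.emod_add_mul_ediv _ _).symm
    rw [e]
    have h0 := Int.emod_nonneg j' hz.ne'
    have h2 := Int.emod_lt_of_pos j' hz
    generalize j' % (p' : ℤ) = i' at *
    generalize j - j' / p' * p = i
    have hle := dL_le_Phi hp hr (cop_left h1) i
    rcases Nat.eq_zero_or_pos r' with rfl | hr0
    · have : p' = 1 := Nat.eq_one_of_mul_eq_one_right (by simpa using h1)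
      subst this
      have : r = 1 := by simpa using h1
      subst this
      have : i' = 0 := by omega
      subst this
      have a : (p : ℚ) ≠ 0 := by exact_mod_cast hp.ne'
      simp only [Phi, dL_one] at hle
      simp only [D, deg, kg, dL_one]
      push_cast at hle ⊢
      have : (1 - (1 * (2 * (i : ℚ) + 1 - 1) - p * 1) ^ 2 / (p * 1)) / 4
          = -(-1 / 4 + (2 * i + 1 - p - 1) ^ 2 / (4 * p * 1) - 0) := by
        field_simp; ring
      rw [this]; linarith
    · have a := Phi_edge hp hp' hr0 h1 i i'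
      have b := ih r' p' r p (by omega) hr0 hr (by nlinarith) i' i
      rw [Phi_eq hp' hr0 (cop_right h1) h0 (by omega)] at a
      rw [D]; linarith

/-- INEQUALITY (I) on every edge of positive slopes (`q' = 0` allowed) -/
theorem D_nonneg {p q p' q' : ℕ} (hp : 0 < p) (hp' : 0 < p') (h : p' * q = p * q' + 1)
    (j j' : ℤ) : 0 ≤ D p q p' q' j j' := D_nonneg_aux _ p q p' q' le_rfl hp hp' h j j'

/-- blow-up identity for the degrees on a triad -/
theorem deg_triad {p p' : ℕ} (q q' : ℕ) (hp : 0 < p) (hp' : 0 < p') (a b c : ℤ) :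
    deg p q (p + p') (q + q') a b + deg (p + p') (q + q') p' q' b c
      = deg p q p' q' a c + (1 - (2 * ((b : ℚ) - a - c) - 1) ^ 2) / 4 := by
  have h1 : (p : ℚ) ≠ 0 := by exact_mod_cast hp.ne'
  have h2 : (p' : ℚ) ≠ 0 := by exact_mod_cast hp'.ne'
  have h3 : (p : ℚ) + p' ≠ 0 := by exact_mod_cast (Nat.add_pos_left hp p').ne'
  simp only [deg, kg]
  push_cast
  field_simp
  ring

theorem D_triad {p p' : ℕ} (q q' : ℕ) (hp : 0 < p) (hp' : 0 < p') (a b c : ℤ) :
    D p q (p + p') (q + q') a b + D (p + p') (q + q') p' q' b c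
      = D p q p' q' a c - (1 - (2 * ((b : ℚ) - a - c) - 1) ^ 2) / 4 := by
  have := deg_triad q q' hp hp' a b c
  simp only [D]; linarith

/-- a class of defect zero gives four classes of defect zero on the two new edges -/
theorem D_med {p q p' q' : ℕ} (hp : 0 < p) (hp' : 0 < p') (h : p' * q = p * q' + 1) {a c : ℤ}
    (h0 : D p q p' q' a c = 0) {b : ℤ} (hb : b = a + c ∨ b = a + c + 1) :
    D p q (p + p') (q + q') a b = 0 ∧ D (p + p') (q + q') p' q' b c = 0 := by
  have e := D_triad q q' hp hp' a b c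
  have e1 := D_nonneg (q := q) (q' := q + q') hp (Nat.add_pos_left hp p') (by nlinarith) a b
  have e2 := D_nonneg (q := q + q') (q' := q') (Nat.add_pos_left hp p') hp' (by nlinarith) b c
  have : (1 - (2 * ((b : ℚ) - a - c) - 1) ^ 2) / 4 = 0 := by
    rcases hb with rfl | rfl <;> push_cast <;> ring
  rw [h0, this] at e
  constructor <;> linarith

/-- unit step lattice paths inside a set `P` -/
inductive Rch (P : ℤ → ℤ → Prop) (a b : ℤ) : ℤ → ℤ → Prop
  | refl : P a b → Rch P a b a b
  | rt {c d : ℤ} : Rch P a b c d → P (c + 1) d → Rch P a b (c + 1) d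
  | up {c d : ℤ} : Rch P a b c d → P c (d + 1) → Rch P a b c (d + 1)

theorem Rch.last {P : ℤ → ℤ → Prop} {a b c d : ℤ} (h : Rch P a b c d) : P c d := by
  cases h <;> assumption

theorem Rch.fst {P : ℤ → ℤ → Prop} {a b c d : ℤ} (h : Rch P a b c d) :
    ∀ n, a ≤ n → n ≤ c → ∃ m, P n m := by
  induction h with
  | refl h => intro n h1 h2; exact ⟨b, by rwa [le_antisymm h2 h1]⟩
  | @rt c d _ h ih =>
    intro n h1 h2
    by_cases e : n = c + 1
    · exact ⟨d, e ▸ h⟩
    · exact ih n h1 (by omega)
  | up _ _ ih => exact ih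

theorem Rch.snd {P : ℤ → ℤ → Prop} {a b c d : ℤ} (h : Rch P a b c d) :
    ∀ n, b ≤ n → n ≤ d → ∃ m, P m n := by
  induction h with
  | refl h => intro n h1 h2; exact ⟨a, by rwa [le_antisymm h2 h1]⟩
  | rt _ _ ih => exact ih
  | @up c d _ h ih =>
    intro n h1 h2
    by_cases e : n = d + 1
    · exact ⟨c, e ▸ h⟩
    · exact ih n h1 (by omega)

theorem Rch.medL {P Q : ℤ → ℤ → Prop} (h1 : ∀ a c, P a c → Q a (a + c))
    (h2 : ∀ a c, P a c → Q a (a + c + 1)) {a b c d : ℤ} (h : Rch P a b c d) :
    Rch Q a (a + b) c (c + d) := by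
  induction h with
  | refl h => exact .refl (h1 _ _ h)
  | @rt c d h h' ih =>
    have e : c + 1 + d = c + d + 1 := by ring
    have := h1 _ _ h'
    rw [e] at this ⊢
    exact .rt (.up ih (h2 _ _ h.last)) this
  | @up c d h h' ih => rw [← add_assoc]; exact .up ih (h2 _ _ h.last)

theorem Rch.medR {P Q : ℤ → ℤ → Prop} (h1 : ∀ a c, P a c → Q (a + c) c)
    (h2 : ∀ a c, P a c → Q (a + c + 1) c) {a b c d : ℤ} (h : Rch P a b c d) :
    Rch Q (a + b) b (c + d) d := by
  induction h with
  | refl h => exact .refl (h1 _ _ h)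
  | @rt c d h h' ih =>
    have e : c + 1 + d = c + d + 1 := by ring
    rw [e]; exact .rt ih (h2 _ _ h.last)
  | @up c d h h' ih =>
    have := h1 _ _ h'
    rw [← add_assoc] at this ⊢
    exact .up (.rt ih (h2 _ _ h.last)) this

/-- induction over all edges of positive slopes: base `1/(b+1) → 1/b`, two mediant steps -/
theorem edge_ind {M : ℕ → ℕ → ℕ → ℕ → Prop} (base : ∀ b, M 1 (b + 1) 1 b)
    (stL : ∀ p q p' q', 0 < p → 0 < p' → p' * q = p * q' + 1 → M p q p' q' →
      M p q (p + p') (q + q'))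
    (stR : ∀ p q p' q', 0 < p → 0 < p' → p' * q = p * q' + 1 → M p q p' q' →
      M (p + p') (q + q') p' q') :
    ∀ p q p' q', 0 < p → 0 < p' → p' * q = p * q' + 1 → M p q p' q' := by
  have key : ∀ n p q p' q', p + p' ≤ n → 0 < p → 0 < p' → p' * q = p * q' + 1 → M p q p' q' := by
    intro n
    induction n with
    | zero => intro p q p' q' hn hp; omega
    | succ n ih =>
      intro p q p' q' hn hp hp' h
      have hq : 0 < q := by
        rcases Nat.eq_zero_or_pos q with rfl | hq
        · simp at h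
        · exact hq
      rcases lt_trichotomy p p' with hl | rfl | hl
      · obtain ⟨s, rfl⟩ : ∃ s, p' = p + s := ⟨p' - p, by omega⟩
        obtain ⟨t, rfl⟩ : ∃ t, q' = q + t := by
          refine ⟨q' - q, ?_⟩
          have : q ≤ q' := by
            by_contra hc
            rw [not_le] at hc
            nlinarith
          omega
        have h' : s * q = p * t + 1 := by nlinarith
        exact stL p q s t hp (by omega) h' (ih p q s t (by omega) hp (by omega) h')
      · have : p = 1 := by
          have : p ∣ 1 := (Nat.dvd_add_right (Dvd.intro q' rfl)).1 (h ▸ Dvd.intro q rfl)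
          exact Nat.dvd_one.1 this
        subst this
        have : q = q' + 1 := by omega
        subst this
        exact base q'
      · obtain ⟨s, rfl⟩ : ∃ s, p = s + p' := ⟨p - p', by omega⟩
        obtain ⟨t, rfl⟩ : ∃ t, q = t + q' := by
          refine ⟨q - q', ?_⟩
          have : q' ≤ q := by
            by_contra hc
            rw [not_le] at hc
            nlinarith
          omega
        have h' : p' * t = s * q' + 1 := by nlinarith
        exact stR s t p' q' (by omega) hp' h' (ih s t p' q' (by omega) (by omega) hp' h')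
  exact fun p q p' q' => key _ p q p' q' le_rfl

/-- STAIRCASE of classes of defect zero, from `(0,0)` to `(p,p')` -/
theorem stair : ∀ p q p' q' : ℕ, 0 < p → 0 < p' → p' * q = p * q' + 1 →
    Rch (fun a c => D p q p' q' a c = 0) 0 0 p p' := by
  refine edge_ind ?_ ?_ ?_
  · intro b
    have h : ∀ a c : ℤ, (a - c = 0 ∨ a - c = 1) → D 1 (b + 1) 1 b a c = 0 := by
      intro a c h
      simp only [D, deg, kg, dL_one]
      push_cast
      have : (a : ℚ) - c = 0 ∨ (a : ℚ) - c = 1 := by exact_mod_cast h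
      rcases this with h | h
      · have : (a : ℚ) = c := by linarith
        rw [this]; ring
      · have : (a : ℚ) = c + 1 := by linarith
        rw [this]; ring
    have := Rch.up (Rch.rt (Rch.refl (P := fun a c => D 1 (b + 1) 1 b a c = 0)
      (h 0 0 (by simp))) (h _ _ (by simp))) (h _ _ (by simp))
    simpa using this
  · intro p q p' q' hp hp' h ih
    have := ih.medL (Q := fun a c => D p q (p + p') (q + q') a c = 0)
      (fun a c h0 => (D_med hp hp' h h0 (.inl rfl)).1)
      (fun a c h0 => (D_med hp hp' h h0 (.inr rfl)).1)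
    simpa using this
  · intro p q p' q' hp hp' h ih
    have := ih.medR (Q := fun a c => D (p + p') (q + q') p' q' a c = 0)
      (fun a c h0 => (D_med hp hp' h h0 (.inl rfl)).2)
      (fun a c h0 => (D_med hp hp' h h0 (.inr rfl)).2)
    simpa using this

/-- MATCH, near end: every label of the source lies in a class of defect zero -/
theorem match_near {p q p' q' : ℕ} (hp : 0 < p) (hp' : 0 < p') (h : p' * q = p * q' + 1)
    (j : ℤ) : ∃ j', D p q p' q' j j' = 0 := by
  have hz : (0 : ℤ) < p := by exact_mod_cast hp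
  obtain ⟨m, hm⟩ := (stair p q p' q' hp hp' h).fst (j % p) (Int.emod_nonneg _ hz.ne')
    (Int.emod_lt_of_pos _ hz).le
  refine ⟨m + j / p * p', ?_⟩
  rw [← D_add p q p' q' _ _ (j / p), mul_comm (j / p), Int.emod_add_mul_ediv] at hm
  exact hm

/-- MATCH, far end: every label of the target lies in a class of defect zero -/
theorem match_far {p q p' q' : ℕ} (hp : 0 < p) (hp' : 0 < p') (h : p' * q = p * q' + 1)
    (j' : ℤ) : ∃ j, D p q p' q' j j' = 0 := by
  have hz : (0 : ℤ) < p' := by exact_mod_cast hp'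
  obtain ⟨m, hm⟩ := (stair p q p' q' hp hp' h).snd (j' % p') (Int.emod_nonneg _ hz.ne')
    (Int.emod_lt_of_pos _ hz).le
  refine ⟨m + j' / p' * p, ?_⟩
  rw [← D_add p q p' q' _ _ (j' / p'), mul_comm (j' / p') (p' : ℤ), Int.emod_add_mul_ediv] at hm
  exact hm

/-- every positive slope with `q > 0` has an upper neighbour with smaller denominator -/
theorem exists_upper {p q : ℕ} (hp : 0 < p) (hq : 0 < q) (hc : Nat.Coprime p q) :
    ∃ p' q', 0 < p' ∧ q' < q ∧ p' * q = p * q' + 1 := by
  by_cases h : q = 1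
  · subst h; exact ⟨1, 0, one_pos, one_pos, by simp⟩
  obtain ⟨m, hm, e⟩ := Nat.exists_mul_mod_eq_one_of_coprime hc (by omega : 1 < q)
  have e2 := Nat.mod_add_div (p * m) q
  rw [e] at e2
  have hm0 : 0 < m := by
    rcases Nat.eq_zero_or_pos m with rfl | h
    · simp at e
    · exact h
  obtain ⟨t, rfl⟩ : ∃ t, q = m + t := ⟨q - m, by omega⟩
  generalize p * m / (m + t) = s at e2
  have : s < p := by
    by_contra hc
    rw [not_lt] at hc
    nlinarith
  obtain ⟨u, rfl⟩ : ∃ u, p = s + u := ⟨p - s, by omega⟩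
  exact ⟨u, t, by omega, by omega, by nlinarith⟩

/-- every slope with `p ≥ 2` has a lower neighbour with smaller positive numerator -/
theorem exists_lower {p q : ℕ} (hp : 1 < p) (hc : Nat.Coprime p q) :
    ∃ p' q', 0 < p' ∧ p' < p ∧ p * q' = p' * q + 1 := by
  have hq : 0 < q := by
    rcases Nat.eq_zero_or_pos q with rfl | h
    · simp at hc; omega
    · exact h
  obtain ⟨a, b, ha, hb, e⟩ := exists_upper hq (by omega : 0 < p) hc.symm
  refine ⟨b, a, ?_, hb, by nlinarith⟩
  rcases Nat.eq_zero_or_pos b with rfl | h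
  · have : p = 1 := Nat.eq_one_of_mul_eq_one_left (by simpa using e)
    omega
  · exact h

/-- upper bound: a function with the inequality on all edges and `d(∞) ≤ 0` lies below `dL` -/
theorem le_dL {d : ℕ → ℕ → ℤ → ℚ}
    (H : ∀ p q p' q', 0 < p → 0 < p' → p' * q = p * q' + 1 → ∀ j j',
      d p q j + deg p q p' q' j j' ≤ d p' q' j')
    (h0 : ∀ j, d 1 0 j ≤ 0) (q : ℕ) :
    ∀ p, 0 < p → Nat.Coprime p q → ∀ j, d p q j ≤ dL p q j := by
  induction q using Nat.strong_induction_on with
  | _ q ih =>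
    intro p hp hc j
    rcases Nat.eq_zero_or_pos q with rfl | hq
    · have : p = 1 := by simpa using hc
      subst this; simpa using h0 j
    obtain ⟨p', q', hp', hlt, e⟩ := exists_upper hp hq hc
    obtain ⟨j', hj⟩ := match_near hp hp' e j
    have a := H p q p' q' hp hp' e j j'
    have b := ih q' hlt p' hp' (cop_right e) j'
    rw [D] at hj; linarith

/-- lower bound: the inequality on all edges and `d(1/b) ≥ 0` put `d` above `dL` -/
theorem dL_le {d : ℕ → ℕ → ℤ → ℚ}
    (H : ∀ p q p' q', 0 < p → 0 < p' → p' * q = p * q' + 1 → ∀ j j',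
      d p q j + deg p q p' q' j j' ≤ d p' q' j')
    (h0 : ∀ b j, 0 ≤ d 1 b j) (p : ℕ) :
    ∀ q, 0 < p → Nat.Coprime p q → ∀ j, dL p q j ≤ d p q j := by
  induction p using Nat.strong_induction_on with
  | _ p ih =>
    intro q hp hc j
    by_cases h : p = 1
    · subst h; simpa using h0 q j
    obtain ⟨p', q', hp', hlt, e⟩ := exists_lower (by omega : 1 < p) hc
    obtain ⟨j', hj⟩ := match_far hp' hp e j
    have a := H p' q' p q hp' hp e j' j
    have b := ih p' hlt q' hp' (cop_left e) j'
    rw [D] at hj; linarith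

/-- the shear `p/q → (p+q)/q` in the class `j` shifts the cone degree by its own degree -/
theorem Phi_shear {p q : ℕ} (hp : 0 < p) (hq : 0 < q) (j : ℤ) :
    Phi (p + q) q j = Phi p q j + (1 - (2 * (j : ℚ) + 1 - q) ^ 2 / (p * (p + q))) / 4 := by
  have h1 : (p : ℚ) ≠ 0 := by exact_mod_cast hp.ne'
  have h2 : (q : ℚ) ≠ 0 := by exact_mod_cast hq.ne'
  have h3 : (p : ℚ) + q ≠ 0 := by exact_mod_cast (Nat.add_pos_left hp q).ne'
  have : dL q (p + q) j = dL q p j := dL_congr (by simp) rfl
  simp only [Phi, this]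
  push_cast
  field_simp
  ring

/-- MATCH for the shear: defect zero on the window `0 ≤ j < p + q` (all labels of both ends) -/
theorem shear_eq {p q : ℕ} (hp : 0 < p) (hq : 0 < q) (hc : Nat.Coprime p q) {j : ℤ} (h0 : 0 ≤ j)
    (h1 : j < p + q) :
    dL (p + q) q j = dL p q j + (1 - (2 * (j : ℚ) + 1 - q) ^ 2 / (p * (p + q))) / 4 := by
  rw [← Phi_eq hp hq hc h0 h1, ← Phi_shear hp hq,
    Phi_eq (Nat.add_pos_left hp q) hq (by simpa using hc) h0 (by push_cast; omega)]

end Crest.Agent.X212.Lens8
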